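import Mathlib

/-! Baer trick: products in groups whose commutators are central of order dividing an odd number. -/

namespace Vale.Agent.P329.H433

section baer

variable {m : ℕ} {K : Type*} [Group K]

/-- central elements of order dividing `m` -/
def Em (m : ℕ) (K : Type*) [Group K] : Subgroup K where
  carrier := {h | (∀ g, g * h = h * g) ∧ h ^ m = 1}
  mul_mem' := by
    rintro a b ⟨ha, ha3⟩ ⟨hb, hb3⟩
    refine ⟨fun g => by rw [← mul_assoc, ha, mul_assoc, hb, mul_assoc], ?_⟩
    rw [(show Commute a b from hb a).mul_pow, ha3, hb3, one_mul]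
  one_mem' := ⟨fun g => by rw [mul_one, one_mul], one_pow m⟩
  inv_mem' := by
    rintro a ⟨ha, ha3⟩
    exact ⟨fun g => (show Commute g a from ha g).inv_right, by rw [inv_pow, ha3, inv_one]⟩

theorem mem_em {h : K} : h ∈ Em m K ↔ (∀ g, g * h = h * g) ∧ h ^ m = 1 := Iff.rfl

instance emComm : CommGroup (Em m K) :=
  { (inferInstance : Group (Em m K)) with mul_comm := fun a b => Subtype.ext (b.2.1 a) }

instance emMod : Module (ZMod m) (Additive (Em m K)) :=
  AddCommGroup.zmodModule (n := m) (fun x => by
    apply Additive.toMul.injective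
    rw [toMul_nsmul, toMul_zero]
    exact Subtype.ext (Additive.toMul x).2.2)

/-- underlying element -/
def vE (e : Additive (Em m K)) : K := ((Additive.toMul e : Em m K) : K)

theorem vE_add (a b : Additive (Em m K)) : vE (a + b) = vE a * vE b := rfl
theorem vE_zero : vE (0 : Additive (Em m K)) = 1 := rfl
theorem vE_neg (e : Additive (Em m K)) : vE (-e) = (vE e)⁻¹ := rfl
theorem vE_nsmul (n : ℕ) (e : Additive (Em m K)) : vE (n • e) = vE e ^ n := rfl
theorem vE_cen (e : Additive (Em m K)) (g : K) : g * vE e = vE e * g := (Additive.toMul e).2.1 g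
theorem vE_pow (e : Additive (Em m K)) : vE e ^ m = 1 := (Additive.toMul e).2.2
theorem m_nsmul (e : Additive (Em m K)) : m • e = 0 := by
  have h : vE (m • e) = vE (0 : Additive (Em m K)) := vE_pow e
  exact Additive.toMul.injective (Subtype.ext h)
theorem vE_inj {a b : Additive (Em m K)} (h : vE a = vE b) : a = b :=
  Additive.toMul.injective (Subtype.ext h)

variable (hK : ∀ x y : K, x * y * x⁻¹ * y⁻¹ ∈ Em m K)

/-- the commutator -/
def cc (x y : K) : Additive (Em m K) := Additive.ofMul ⟨x * y * x⁻¹ * y⁻¹, hK x y⟩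

theorem vE_cc (x y : K) : vE (cc hK x y) = x * y * x⁻¹ * y⁻¹ := rfl

theorem cc_one_left (y : K) : cc hK 1 y = 0 := by
  apply vE_inj
  rw [vE_cc, vE_zero]; group

theorem cc_mul_left (x y z : K) : cc hK (x * y) z = cc hK x z + cc hK y z := by
  apply vE_inj
  have h : vE (cc hK (x * y) z) = x * vE (cc hK y z) * (z * x⁻¹ * z⁻¹) := by
    rw [vE_cc, vE_cc]; group
  have h2 := (vE_cen (cc hK y z) (x * (z * x⁻¹ * z⁻¹))).symm
  rw [vE_add, h, vE_cen (cc hK y z) x, mul_assoc, h2]
  congr 1
  rw [vE_cc]; group

theorem cc_swap (x y : K) : cc hK y x = -cc hK x y := by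
  rw [eq_neg_iff_add_eq_zero]
  apply vE_inj
  rw [vE_add, vE_zero, vE_cc, vE_cc]; group

theorem cc_self (x : K) : cc hK x x = 0 := by
  apply vE_inj
  rw [vE_cc, vE_zero]; group

theorem cc_mul_right (x y z : K) : cc hK x (y * z) = cc hK x y + cc hK x z := by
  rw [cc_swap hK (y * z) x, cc_mul_left, neg_add, ← cc_swap, ← cc_swap]

theorem cc_one_right (y : K) : cc hK y 1 = 0 := by
  rw [cc_swap hK 1 y, cc_one_left, neg_zero]

theorem cc_vE (e : Additive (Em m K)) (y : K) : cc hK (vE e) y = 0 := by
  apply vE_inj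
  rw [vE_cc, vE_zero, ← vE_cen e y]; group

theorem cc_vE_right (e : Additive (Em m K)) (y : K) : cc hK y (vE e) = 0 := by
  rw [cc_swap hK (vE e) y, cc_vE, neg_zero]

theorem cc_inv_left (x y : K) : cc hK x⁻¹ y = -cc hK x y := by
  rw [eq_neg_iff_add_eq_zero, ← cc_mul_left, inv_mul_cancel, cc_one_left]

theorem comm_eq (x y : K) : x * y = vE (cc hK x y) * (y * x) := by
  rw [vE_cc]; group

/-- the commutative group attached to `K`: `x ∘ y = x y [y, x] ^ ((m + 1) / 2)` -/
structure Ba (hK : ∀ x y : K, x * y * x⁻¹ * y⁻¹ ∈ Em m K) where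
  /-- underlying element -/
  val : K

variable {hK}

@[ext] theorem Ba.ext' {a b : Ba hK} (h : a.val = b.val) : a = b := by
  cases a; cases b; cases h; rfl

instance [Finite K] : Finite (Ba hK) :=
  Finite.of_injective (fun a => a.val) fun _ _ h => Ba.ext' h

instance : Mul (Ba hK) := ⟨fun a b => ⟨a.val * b.val * vE (((m + 1) / 2) • cc hK b.val a.val)⟩⟩
instance : One (Ba hK) := ⟨⟨1⟩⟩
instance : Inv (Ba hK) := ⟨fun a => ⟨a.val⁻¹⟩⟩

theorem ba_mul (a b : Ba hK) :
    (a * b).val = a.val * b.val * vE (((m + 1) / 2) • cc hK b.val a.val) := rfl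
theorem ba_one : (1 : Ba hK).val = 1 := rfl

instance baGroup : Group (Ba hK) := by
  refine Group.ofLeftAxioms ?_ ?_ ?_
  · intro a b c
    apply Ba.ext'
    rw [ba_mul, ba_mul, ba_mul, ba_mul, cc_mul_right, cc_mul_right, cc_vE_right, cc_mul_left,
      cc_mul_left, cc_vE, add_zero, add_zero]
    rw [mul_assoc (a.val * b.val), ← vE_cen _ c.val]
    simp only [mul_assoc, ← vE_add]
    congr 4
    rw [nsmul_add, nsmul_add]
    abel
  · intro a
    apply Ba.ext'
    rw [ba_mul, ba_one, cc_one_right, nsmul_zero, vE_zero, mul_one, one_mul]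
  · intro a
    apply Ba.ext'
    rw [ba_mul, ba_one]
    have h : cc hK a.val (a⁻¹).val = 0 := by
      apply vE_inj
      rw [vE_cc, vE_zero]
      show a.val * a.val⁻¹ * a.val⁻¹ * (a.val⁻¹)⁻¹ = 1
      group
    rw [h, nsmul_zero, vE_zero, mul_one]
    exact inv_mul_cancel a.val

/-- the group `Ba` is commutative for odd `m` -/
theorem ba_comm (hm : Odd m) (a b : Ba hK) : a * b = b * a := by
  apply Ba.ext'
  rw [ba_mul, ba_mul, comm_eq hK a.val b.val, cc_swap hK a.val b.val, mul_assoc,
    ← vE_cen, mul_assoc, ← vE_add]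
  congr 2
  obtain ⟨k, hk⟩ := hm
  have h2 : (m + 1) / 2 = k + 1 := by omega
  rw [h2]
  generalize hcd : cc hK a.val b.val = c
  have hz : (k + (k + 1)) • c = 0 := by
    have h3 : k + (k + 1) = m := by omega
    rw [h3, m_nsmul]
  have key : c + (k + 1) • (-c) = (k + 1) • c := by
    rw [smul_neg, ← sub_eq_add_neg, sub_eq_iff_eq_add, ← add_nsmul]
    have h5 : k + 1 + (k + 1) = (k + (k + 1)) + 1 := by omega
    rw [h5, succ_nsmul, hz, zero_add]
  rw [add_comm]; exact key

/-- the commutative group structure on `Ba` -/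
@[reducible] def baComm (hm : Odd m) : CommGroup (Ba hK) :=
  { baGroup with mul_comm := ba_comm hm }

variable (hK)

/-- sum of the commutators `[l_i, l_j]`, `i < j` -/
def ps : List K → Additive (Em m K)
  | [] => 0
  | x :: l => (l.map (cc hK x)).sum + ps l

/-- the product in `Ba` -/
def bprod (l : List K) : Ba hK := (l.map (Ba.mk (hK := hK))).prod

theorem bprod_nil : bprod hK [] = 1 := rfl
theorem bprod_cons (x : K) (l : List K) : bprod hK (x :: l) = (⟨x⟩ : Ba hK) * bprod hK l := by
  simp [bprod]
theorem bprod_append (l l' : List K) : bprod hK (l ++ l') = bprod hK l * bprod hK l' := by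
  simp [bprod]

theorem cc_bprod (x : K) (l : List K) : cc hK (bprod hK l).val x = (l.map fun y => cc hK y x).sum := by
  induction l with
  | nil => simp [bprod_nil, ba_one, cc_one_left]
  | cons y l ih => rw [bprod_cons, ba_mul, cc_mul_left, cc_mul_left, cc_vE, add_zero, ih]; simp

theorem sum_cc_swap (x : K) (l : List K) :
    (l.map fun y => cc hK y x).sum = -(l.map (cc hK x)).sum := by
  induction l with
  | nil => simp
  | cons y l ih => simp only [List.map_cons, List.sum_cons, ih, cc_swap hK x y, neg_add]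

/-- **Baer**: the product is the product in the commutative group times half the commutators. -/
theorem prod_eq (l : List K) :
    l.prod = (bprod hK l).val * vE (((m + 1) / 2) • ps hK l) := by
  induction l with
  | nil => simp [bprod_nil, ba_one, ps, vE_zero]
  | cons x l ih =>
    rw [List.prod_cons, ih, bprod_cons, ba_mul, cc_bprod, sum_cc_swap, ps, ← mul_assoc, mul_assoc
      (x * (bprod hK l).val), ← vE_add]
    congr 2
    rw [nsmul_add, smul_neg]
    abel

/-- the product is a function of the product in `Ba` and of the sum of the commutators -/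
theorem prod_congr {l l' : List K} (h : bprod hK l = bprod hK l') (h' : ps hK l = ps hK l') :
    l.prod = l'.prod := by
  rw [prod_eq hK l, prod_eq hK l', h, h']

/-- `ps` of a concatenation -/
theorem ps_append (l l' : List K) :
    ps hK (l ++ l') = ps hK l + ps hK l' + (l.map fun x => (l'.map (cc hK x)).sum).sum := by
  induction l with
  | nil => simp [ps]
  | cons x l ih =>
    simp only [List.cons_append, ps, ih, List.map_append, List.sum_append, List.map_cons,
      List.sum_cons]
    abel

end baer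

/-- A finite group whose commutators are central and whose commutators have odd order has the
hypothesis of this file. -/
theorem mem_of_central {G : Type*} [Group G] {m : ℕ}
    (hc : ∀ x y z : G, z * (x * y * x⁻¹ * y⁻¹) = (x * y * x⁻¹ * y⁻¹) * z)
    (hm : ∀ x y : G, (x * y * x⁻¹ * y⁻¹) ^ m = 1) (x y : G) : x * y * x⁻¹ * y⁻¹ ∈ Em m G :=
  ⟨fun g => hc x y g, hm x y⟩

end Vale.Agent.P329.H433
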