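import Vale.Agent.P329.H559.C2.Defs
import Vale.Agent.P329.H433.BaerG

/-!
# P329 / context products in finite groups of class two of odd order from pair sums
-/

set_option linter.all false

namespace Vale.Agent.P329.H433

open Vale.Agent.P329

/-- context products in finite abelian groups of odd order -/
theorem ctxK_odd_comm {G : Type} [Group G] [Finite G] (hc : ∀ a b : G, a * b = b * a)
    (ho : Odd (Nat.card G)) (l : ℕ) : H434.CtxK (2 ^ l) G := by
  letI : CommGroup G := { (inferInstance : Group G) with mul_comm := hc }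
  obtain ⟨ι, hι, n, hn, ⟨e⟩⟩ := CommGroup.equiv_prod_multiplicative_zmod_of_finite G
  haveI : ∀ i, NeZero (n i) := fun i => ⟨by have := hn i; omega⟩
  have hodd : ∀ i, Odd (n i) := by
    intro i
    have h1 : Nat.card G = ∏ i, n i := by
      rw [Nat.card_congr e.toEquiv, Nat.card_pi]
      refine Finset.prod_congr rfl fun i _ => ?_
      rw [Nat.card_congr (Multiplicative.toAdd : Multiplicative (ZMod (n i)) ≃ ZMod (n i)),
        Nat.card_zmod]
    have h2 : n i ∣ Nat.card G := by
      rw [h1]; exact Finset.dvd_prod_of_mem _ (Finset.mem_univ i)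
    exact Odd.of_dvd_nat ho h2
  exact (H434.CtxK.pi fun i => H559.ctxK_odd (n i) (hodd i) l).equiv e.symm

section

variable {α G : Type} [Group G] {m : ℕ}

/-- labels of a history -/
def lb {α G : Type} (χ : List α → α → G) : List α → List G
  | [] => []
  | b :: X => lb χ X ++ [χ X b]

theorem hp_lb (χ : List α → α → G) (X : List α) : H157.hp χ X = (lb χ X).prod := by
  induction X with
  | nil => rfl
  | cons b X ih => rw [H157.hp, ih, lb, List.prod_append, List.prod_singleton]

theorem bprod_lb (hK : ∀ x y : G, x * y * x⁻¹ * y⁻¹ ∈ Em m G) (χ : List α → α → G)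
    (X : List α) :
    bprod hK (lb χ X) = H157.hp (fun X b => (⟨χ X b⟩ : Ba hK)) X := by
  induction X with
  | nil => rfl
  | cons b X ih => rw [lb, bprod_append, ih, H157.hp]; simp [bprod]

open Classical in
/-- indicator of a label -/
noncomputable def ind (m : ℕ) {α G : Type} (χ : List α → α → G) (g : G) (X : List α) (b : α) :
    ZMod m := if χ X b = g then 1 else 0

theorem sum_lb [Fintype G] (hK : ∀ x y : G, x * y * x⁻¹ * y⁻¹ ∈ Em m G) (χ : List α → α → G)
    (y : G) (X : List α) :
    ((lb χ X).map fun x => cc hK x y).sum = ∑ g : G, H559.SS (ind m χ g) X • cc hK g y := by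
  classical
  induction X with
  | nil =>
    simp only [lb, List.map_nil, List.sum_nil, H559.SS, zero_smul, Finset.sum_const_zero]
  | cons b X ih =>
    rw [lb, List.map_append, List.sum_append, ih]
    simp only [H559.SS, add_smul]
    rw [Finset.sum_add_distrib]
    congr 1
    rw [Finset.sum_eq_single (χ X b)]
    · simp [ind]
    · intro g _ hg
      rw [ind, if_neg fun h => hg h.symm, zero_smul]
    · intro h; exact absurd (Finset.mem_univ _) h

theorem ps_lb [Fintype G] (hK : ∀ x y : G, x * y * x⁻¹ * y⁻¹ ∈ Em m G) (χ : List α → α → G)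
    (X : List α) :
    ps hK (lb χ X) =
      ∑ p : G × G, H559.C2.PP (ind m χ p.1) (ind m χ p.2) X • cc hK p.1 p.2 := by
  classical
  induction X with
  | nil =>
    simp only [lb, ps, H559.C2.PP, zero_smul, Finset.sum_const_zero]
  | cons b X ih =>
    rw [lb, ps_append, ih]
    simp only [H559.C2.PP, add_smul]
    rw [Finset.sum_add_distrib, add_assoc]
    congr 1
    have h1 : ps hK [χ X b] = 0 := by simp [ps]
    rw [h1, zero_add]
    simp only [List.map_cons, List.map_nil, List.sum_cons, List.sum_nil, add_zero]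
    rw [sum_lb, Fintype.sum_prod_type]
    refine Finset.sum_congr rfl fun g _ => ?_
    rw [Finset.sum_eq_single (χ X b)]
    · simp [ind]
    · intro y _ hy
      dsimp only
      rw [ind, if_neg fun h => hy h.symm, zero_mul, zero_smul]
    · intro h; exact absurd (Finset.mem_univ _) h

end

/-- **context products in finite groups of class two of odd order** -/
theorem cl2_of (h : H559.C2.PPStmt) : H559.C2.Cl2Stmt := by
  classical
  intro G _ _ ho hc l α _ c χ hχ S
  haveI := Fintype.ofFinite G
  have hm0 : Nat.card G ≠ 0 := ho.pos.ne'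
  haveI : NeZero (Nat.card G) := ⟨hm0⟩
  have hK : ∀ x y : G, x * y * x⁻¹ * y⁻¹ ∈ Em (Nat.card G) G := fun x y =>
    ⟨fun g => (hc x y g).symm, pow_card_eq_one'⟩
  have hBo : Odd (Nat.card (Ba hK)) := by
    have h0 : Nat.card (Ba hK) = Nat.card G :=
      Nat.card_congr ⟨fun a => a.val, Ba.mk, fun _ => rfl, fun _ => rfl⟩
    rw [h0]; exact ho
  have h1 : Kn fun w : List α => H157.hp (fun X b => (⟨χ X b⟩ : Ba hK)) w.reverse := by
    intro b
    exact ctxK_odd_comm (ba_comm ho) hBo l α c _
      (fun X Y b h1 h2 => by rw [hχ X Y b h1 h2]) {b}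
  have h2 : Kn fun w : List α => fun p : G × G =>
      H559.C2.PP (ind (Nat.card G) χ p.1) (ind (Nat.card G) χ p.2) w.reverse :=
    Kn.pi fun p => h (Nat.card G) hm0 α l c _ _ fun X Y b h1 h2 => by
      rw [ind, ind, ind, ind, hχ X Y b h1 h2]; exact ⟨rfl, rfl⟩
  have h3 := H434.kn_set (h1.pair h2)
    {x | x.1.val * vE (((Nat.card G + 1) / 2) • ∑ p : G × G, x.2 p • cc hK p.1 p.2) ∈ S}
  refine Eq.mp (congrArg (SH 1) ?_) h3
  ext w
  change (H157.hp (fun X b => (⟨χ X b⟩ : Ba hK)) w.reverse).val *
    vE (((Nat.card G + 1) / 2) • ∑ p : G × G,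
      H559.C2.PP (ind (Nat.card G) χ p.1) (ind (Nat.card G) χ p.2) w.reverse • cc hK p.1 p.2) ∈ S ↔
    H157.hp χ w.reverse ∈ S
  rw [← ps_lb, ← bprod_lb, ← prod_eq, ← hp_lb]

end Vale.Agent.P329.H433
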