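import Vale.Agent.P329.H433.Cl2

/-!
# P329 / context products in all finite groups of class two
-/

set_option linter.all false

namespace Vale.Agent.P329.H433

open Vale.Agent.P329

theorem cl2_nil {G : Type} [Group G]
    (hc : ∀ a b c : G, a * b * a⁻¹ * b⁻¹ * c = c * (a * b * a⁻¹ * b⁻¹)) : Group.IsNilpotent G := by
  have h1 : ∀ x y : G ⧸ Subgroup.center G, x * y = y * x := by
    intro x y
    obtain ⟨a, rfl⟩ := QuotientGroup.mk_surjective x
    obtain ⟨b, rfl⟩ := QuotientGroup.mk_surjective y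
    rw [← QuotientGroup.mk_mul, ← QuotientGroup.mk_mul, eq_comm, QuotientGroup.eq,
      Subgroup.mem_center_iff]
    intro g
    have h2 := hc a⁻¹ b⁻¹ g
    have h3 : (b * a)⁻¹ * (a * b) = a⁻¹ * b⁻¹ * a⁻¹⁻¹ * b⁻¹⁻¹ := by group
    rw [h3, ← h2]
  letI : CommGroup (G ⧸ Subgroup.center G) :=
    { (inferInstance : Group (G ⧸ Subgroup.center G)) with mul_comm := h1 }
  exact Group.of_quotient_center_nilpotent inferInstance

/-- **context products in finite groups of class two, with clocks modulo powers of two** -/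
theorem cl2_all (h2 : ∀ (K : Type) [Group K] [Finite K], IsPGroup 2 K → H434.CtxK 1 K)
    (h : H559.C2.Cl2Stmt) {G : Type} [Group G] [Finite G]
    (hc : ∀ a b c : G, a * b * a⁻¹ * b⁻¹ * c = c * (a * b * a⁻¹ * b⁻¹)) (l : ℕ) :
    H434.CtxK (2 ^ l) G := by
  have hfin : ∀ p : ℕ, Finite (Sylow p G) := fun p => inferInstance
  obtain ⟨e⟩ := (Group.isNilpotent_of_finite_tfae (G := G)).out 0 4 |>.mp (cl2_nil hc)
  refine H434.CtxK.equiv (H434.CtxK.pi fun p => H434.CtxK.pi fun P => ?_) e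
  have hp : (p : ℕ).Prime := Nat.prime_of_mem_primeFactors p.2
  have hf : Fact (p : ℕ).Prime := ⟨hp⟩
  rcases hp.eq_two_or_odd' with h3 | h3
  · have h4 : IsPGroup 2 (P : Subgroup G) := fun g => by
      obtain ⟨k, hk⟩ := P.isPGroup' g
      have h5 : (2 : ℕ) ^ k = (p : ℕ) ^ k := by rw [h3]
      exact ⟨k, by rw [h5]; exact hk⟩
    exact H434.CtxK.clock_p h2 h4 l
  · refine h (P : Subgroup G) ?_ ?_ l
    · obtain ⟨k, hk⟩ := IsPGroup.iff_card.mp P.isPGroup'
      rw [hk]
      exact h3.pow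
    · intro a b c
      exact Subtype.ext (hc a b c)

end Vale.Agent.P329.H433
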