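import Vale.Agent.P329.H433.Nf
import Vale.Agent.P329.H766.Q2F

/-!
# P329 / products of elements of one coset of a normal subgroup with central commutators
-/

set_option linter.all false

namespace Vale.Agent.P329.H433

open Vale.Agent.P329 H766.Q2

section count

open Classical

variable {α : Type}

/-- the letters with their positions, oldest letter first -/
def ann (q : ℕ) : List α → List (α × ZMod q)
  | [] => []
  | x :: X => ann q X ++ [(x, ((X.length : ℕ) : ZMod q))]

theorem ct_ann (q : ℕ) (a : α) (r : ZMod q) (X : List α) :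
    H559.C2.ct (a, r) (ann q X) = nc q a r X := by
  induction X with
  | nil => rfl
  | cons x X ih =>
    rw [ann, H487.ct_snoc, ih, nc]
    simp only [Prod.mk.injEq]

theorem pc_snoc' {A : Type} (a b : A) (w : List A) (x : A) [Decidable (x = b)] :
    H559.C2.pc a b (w ++ [x]) = H559.C2.pc a b w + if x = b then H559.C2.ct a w else 0 := by
  rw [H487.pc_snoc]
  congr

theorem pg_ann [Fintype α] (q : ℕ) [NeZero q] {M : Type} [AddCommGroup M]
    (s : α → α → ZMod q → M) (X : List α) :
    ∑ x : α × ZMod q, ∑ y : α × ZMod q, H559.C2.pc x y (ann q X) • s x.1 y.1 (y.2 - x.2) =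
      ∑ a, ∑ b, ∑ e : ZMod q, PG q e a b X • s a b e := by
  induction X with
  | nil =>
    rw [Finset.sum_eq_zero fun x _ => Finset.sum_eq_zero fun y _ => by
      rw [ann, H559.C2.pc, H559.C2.pcA, zero_smul],
      Finset.sum_eq_zero fun a _ => Finset.sum_eq_zero fun b _ => Finset.sum_eq_zero fun e _ => by
      rw [PG, zero_smul]]
  | cons x X ih =>
    simp only [ann, pc_snoc', add_smul, Finset.sum_add_distrib, ih, PG]
    congr 1
    rw [Fintype.sum_prod_type]
    refine Finset.sum_congr rfl fun a _ => ?_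
    have h1 : ∀ r : ZMod q, (∑ y : α × ZMod q, (if (x, ((X.length : ℕ) : ZMod q)) = y then
        H559.C2.ct (a, r) (ann q X) else 0) • s a y.1 (y.2 - r)) =
        nc q a r X • s a x (((X.length : ℕ) : ZMod q) - r) := by
      intro r
      rw [Finset.sum_eq_single (x, ((X.length : ℕ) : ZMod q))]
      · rw [if_pos rfl, ct_ann]
      · intro y _ hy
        rw [if_neg fun h => hy h.symm, zero_smul]
      · intro h; exact absurd (Finset.mem_univ _) h
    have h2 : (∑ b : α, ∑ e : ZMod q, (if x = b then
        nc q a (((X.length : ℕ) : ZMod q) - e) X else 0) • s a b e) =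
        ∑ e : ZMod q, nc q a (((X.length : ℕ) : ZMod q) - e) X • s a x e := by
      rw [Finset.sum_eq_single x]
      · simp only [if_true]
      · intro y _ hy
        refine Finset.sum_eq_zero fun e _ => ?_
        rw [if_neg fun h => hy h.symm, zero_smul]
      · intro h; exact absurd (Finset.mem_univ _) h
    rw [h2]
    refine (Finset.sum_congr rfl fun r _ => h1 r).trans ?_
    rw [← (Equiv.subLeft ((X.length : ℕ) : ZMod q)).sum_comp]
    refine Finset.sum_congr rfl fun e _ => ?_
    rw [Equiv.subLeft_apply, sub_sub_cancel]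

/-- sum of the quotients of the positions of a letter -/
noncomputable def tn (q : ℕ) (a : α) : List α → ℤ
  | [] => 0
  | x :: X => tn q a X + if x = a then ((X.length / q : ℕ) : ℤ) else 0

theorem tn_eq [Fintype α] (q : ℕ) [NeZero q] (a : α) (X : List α) :
    (q : ℤ) * tn q a X = (∑ b, H559.C2.pc b a X.reverse) -
      ∑ r : ZMod q, (r.val : ℤ) * nc q a r X := by
  have hlen : ∀ w : List α, ∑ b, H559.C2.ct b w = w.length := by
    intro w
    induction w with
    | nil => exact Finset.sum_eq_zero fun b _ => rfl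
    | cons x w ih =>
      simp only [ct_cons, Finset.sum_add_distrib, ih, List.length_cons]
      rw [Finset.sum_ite_eq, if_pos (Finset.mem_univ _)]
      push_cast
      ring
  induction X with
  | nil =>
    have e1 : (∑ b : α, H559.C2.pc b a ([] : List α).reverse) = 0 :=
      Finset.sum_eq_zero fun b _ => rfl
    have e2 : (∑ r : ZMod q, (r.val : ℤ) * nc q a r []) = 0 :=
      Finset.sum_eq_zero fun r _ => by rw [nc, mul_zero]
    rw [e1, e2, tn]
    ring
  | cons x X ih =>
    simp only [List.reverse_cons, H487.pc_snoc, Finset.sum_add_distrib, nc, mul_add, tn]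
    by_cases h : x = a
    · simp only [h, true_and, if_true]
      have e1 : (∑ r : ZMod q, (r.val : ℤ) * if ((X.length : ℕ) : ZMod q) = r then 1 else 0) =
          ((X.length % q : ℕ) : ℤ) := by
        rw [Finset.sum_eq_single ((X.length : ℕ) : ZMod q)]
        · rw [if_pos rfl, mul_one, ZMod.val_natCast]
        · intro r _ hr
          rw [if_neg fun h => hr h.symm, mul_zero]
        · intro h; exact absurd (Finset.mem_univ _) h
      rw [e1, hlen, List.length_reverse, ih]
      have e2 := Nat.mod_add_div X.length q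
      have e3 : ((X.length % q : ℕ) : ℤ) + (q : ℤ) * ((X.length / q : ℕ) : ℤ) = (X.length : ℤ) := by
        exact_mod_cast e2
      linear_combination e3
    · simp only [h, false_and, if_false, Finset.sum_const_zero, mul_zero, add_zero]
      exact ih

end count

section grp

variable {G : Type} [Group G] (N : Subgroup G) [hN : N.Normal] (g : G)

/-- conjugation by a power of `g` -/
def cj (i : ℕ) (n : N) : N := ⟨g ^ i * n * (g ^ i)⁻¹, hN.conj_mem n.1 n.2 (g ^ i)⟩

theorem cj_coe (i : ℕ) (n : N) : ((cj N g i n : N) : G) = g ^ i * n * (g ^ i)⁻¹ := rfl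

theorem cj_zero (n : N) : cj N g 0 n = n := by
  apply Subtype.ext
  rw [cj_coe]; simp

theorem cj_add (i j : ℕ) (n : N) : cj N g (i + j) n = cj N g i (cj N g j n) := by
  apply Subtype.ext
  rw [cj_coe, cj_coe, cj_coe, pow_add]; group

variable {N g} {α : Type} (u : α → N)

/-- product of the conjugates along a history -/
def PX (N : Subgroup G) [hN : N.Normal] (g : G) (u : α → N) : List α → N
  | [] => 1
  | x :: X => PX N g u X * cj N g X.length (u x)

theorem prod_cos (X : List α) : (X.reverse.map fun x => ((u x : N) : G) * g).prod =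
    ((PX N g u X : N) : G) * g ^ X.length := by
  induction X with
  | nil => simp [PX]
  | cons x X ih =>
    rw [List.reverse_cons, List.map_append, List.prod_append, ih, PX, Subgroup.coe_mul, cj_coe,
      List.length_cons, pow_succ]
    simp only [List.map_cons, List.map_nil, List.prod_cons, List.prod_nil, mul_one]
    group

variable {m : ℕ} (hK : ∀ x y : N, x * y * x⁻¹ * y⁻¹ ∈ Em m N)
  (hc : ∀ a b : N, ∀ c : G, c * ((a * b * a⁻¹ * b⁻¹ : N) : G) = ((a * b * a⁻¹ * b⁻¹ : N) : G) * c)

include hc in
theorem cc_cj (i : ℕ) (x y : N) : cc hK (cj N g i x) (cj N g i y) = cc hK x y := by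
  apply vE_inj
  rw [vE_cc, vE_cc]
  apply Subtype.ext
  have h1 : ((cj N g i x * cj N g i y * (cj N g i x)⁻¹ * (cj N g i y)⁻¹ : N) : G) =
      g ^ i * ((x * y * x⁻¹ * y⁻¹ : N) : G) * (g ^ i)⁻¹ := by
    simp only [Subgroup.coe_mul, Subgroup.coe_inv, cj_coe]
    group
  rw [h1, hc, mul_inv_cancel_right]

theorem cc_pow_left (x y : N) (t : ℕ) : cc hK (x ^ t) y = t • cc hK x y := by
  induction t with
  | zero => rw [pow_zero, cc_one_left, zero_smul]
  | succ t ih => rw [pow_succ, cc_mul_left, ih, succ_nsmul]

include hc in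
/-- conjugation by `g ^ i` in terms of the remainder and the quotient of `i` -/
theorem cj_mod {q : ℕ} (h : N) (hh : (h : G) = g ^ q) (i : ℕ) (n : N) :
    cj N g i n = cj N g (i % q) n * vE ((i / q) • cc hK h n) := by
  have h1 : cj N g (q * (i / q)) n = vE ((i / q) • cc hK h n) * n := by
    rw [← cc_pow_left, vE_cc]
    apply Subtype.ext
    rw [cj_coe, pow_mul, ← hh]
    simp only [Subgroup.coe_mul, Subgroup.coe_inv, Subgroup.coe_pow]
    group
  have h2 : i = i % q + q * (i / q) := (Nat.mod_add_div i q).symm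
  have h3 : ((vE ((i / q) • cc hK h n) : N) : G) * (g ^ (i % q))⁻¹ =
      (g ^ (i % q))⁻¹ * ((vE ((i / q) • cc hK h n) : N) : G) := by
    rw [← cc_pow_left, vE_cc]
    exact (hc (h ^ (i / q)) n _).symm
  have h4 : ((vE ((i / q) • cc hK h n) : N) : G) * (n : G) =
      (n : G) * ((vE ((i / q) • cc hK h n) : N) : G) :=
    (congrArg Subtype.val (vE_cen ((i / q) • cc hK h n) n)).symm
  conv_lhs => rw [h2, cj_add, h1]
  apply Subtype.ext
  rw [cj_coe, Subgroup.coe_mul, Subgroup.coe_mul, cj_coe, h4]
  simp only [mul_assoc]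
  rw [h3]

/-- the central correction -/
def TS (q : ℕ) (h : N) : List α → Additive (Em m N)
  | [] => 0
  | x :: X => TS q h X + (X.length / q) • cc hK h (u x)

include hc in
theorem PX_ann {q : ℕ} [NeZero q] (h : N) (hh : (h : G) = g ^ q) (X : List α) :
    PX N g u X = ((ann q X).map fun x => cj N g x.2.val (u x.1)).prod * vE (TS u hK q h X) := by
  induction X with
  | nil => simp [PX, ann, TS, vE_zero]
  | cons x X ih =>
    rw [PX, ih, cj_mod hK hc h hh X.length (u x), ann, List.map_append, List.prod_append, TS,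
      vE_add]
    simp only [List.map_cons, List.map_nil, List.prod_cons, List.prod_nil, mul_one,
      ZMod.val_natCast, mul_assoc]
    congr 1
    rw [← mul_assoc, ← vE_cen (TS u hK q h X) (cj N g (X.length % q) (u x)), mul_assoc]

theorem TS_eq [Fintype α] (q : ℕ) (h : N) (X : List α) :
    TS u hK q h X = ∑ a, tn q a X • cc hK h (u a) := by
  classical
  induction X with
  | nil => exact (Finset.sum_eq_zero fun a _ => by rw [tn, zero_smul]).symm
  | cons x X ih =>
    simp only [TS, ih, tn, add_smul, Finset.sum_add_distrib]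
    congr 1
    rw [Finset.sum_eq_single x]
    · rw [if_pos rfl, natCast_zsmul]
    · intro a _ ha
      rw [if_neg fun h => ha h.symm, zero_smul]
    · intro h; exact absurd (Finset.mem_univ _) h

include hc in
theorem cc_mod {q : ℕ} (h : N) (hh : (h : G) = g ^ q) (i : ℕ) (x y : N) :
    cc hK x (cj N g i y) = cc hK x (cj N g (i % q) y) := by
  rw [cj_mod hK hc h hh i y, cc_mul_right, cc_vE_right, add_zero]

include hc in
theorem cc_dist {q : ℕ} [NeZero q] (h : N) (hh : (h : G) = g ^ q) (c d : ZMod q) (x y : N) :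
    cc hK (cj N g c.val x) (cj N g d.val y) = cc hK x (cj N g (d - c).val y) := by
  have h1 : d.val = (c.val + (d - c).val) % q := by
    rw [← ZMod.val_add, add_sub_cancel]
  rw [h1, ← cc_mod hK hc h hh, cj_add, cc_cj hK hc]

end grp

/-- products of elements of one coset `N g`, if the counts and the pair counts by distance are
known -/
theorem coset_known {G : Type} [Group G] [Finite G] (N : Subgroup G) [N.Normal] {q : ℕ}
    (hq : Odd q) (g : G) (hg : g ^ q ∈ N)
    (hc : ∀ a b : N, ∀ c : G, c * ((a * b * a⁻¹ * b⁻¹ : N) : G) =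
      ((a * b * a⁻¹ * b⁻¹ : N) : G) * c)
    {α : Type} [Finite α] (u : α → N)
    (hn : ∀ (a : α) (r : ZMod q), KnZ fun w : List α => nc q a r w.reverse)
    (hP : ∀ (e : ZMod q) (a b : α), KnZ fun w : List α => PG q e a b w.reverse) :
    Kn fun w : List α => (w.map fun x => ((u x : N) : G) * g).prod := by
  classical
  haveI := Fintype.ofFinite α
  haveI : NeZero q := ⟨hq.pos.ne'⟩
  haveI : NeZero (Nat.card N) := ⟨Nat.card_pos.ne'⟩
  haveI : NeZero (Nat.card G) := ⟨Nat.card_pos.ne'⟩
  have hK : ∀ x y : N, x * y * x⁻¹ * y⁻¹ ∈ Em (Nat.card N) N := fun x y =>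
    ⟨fun z => Subtype.ext (hc x y z), pow_card_eq_one'⟩
  let h : N := ⟨g ^ q, hg⟩
  have hh : (h : G) = g ^ q := rfl
  obtain ⟨k, ⟨e⟩⟩ : ∃ k, Nonempty (α ≃ Fin k) := ⟨_, ⟨Fintype.equivFin α⟩⟩
  let β : α → α → ZMod q → Additive (Em (Nat.card N) N) := fun a b d =>
    cc hK (u a) (cj N g d.val (u b))
  let sab : α → α → ZMod q → Additive (Em (Nat.card N) N) := fun a b d =>
    if e b < e a ∨ (a = b ∧ 0 < d.val ∧ 2 * d.val < q) then β a b d else 0
  let v : α × ZMod q → N := fun x => cj N g x.2.val (u x.1)
  have hβ : ∀ x y : α × ZMod q, cc hK (v x) (v y) = β x.1 y.1 (y.2 - x.2) := fun x y =>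
    cc_dist hK hc h hh x.2 y.2 (u x.1) (u y.1)
  have hs : ∀ x y : α × ZMod q, sab x.1 y.1 (y.2 - x.2) - sab y.1 x.1 (x.2 - y.2) =
      cc hK (v x) (v y) := by
    intro x y
    have h1 : β y.1 x.1 (x.2 - y.2) = - β x.1 y.1 (y.2 - x.2) := by
      rw [← hβ, ← hβ, cc_swap]
    rw [hβ]
    change (if _ then _ else _) - (if _ then _ else _) = _
    rw [h1]
    rcases lt_trichotomy (e x.1) (e y.1) with h2 | h2 | h2
    · have h3 : ¬ (e y.1 < e x.1 ∨ (x.1 = y.1 ∧ 0 < (y.2 - x.2).val ∧
          2 * (y.2 - x.2).val < q)) := by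
        rintro (h3 | ⟨h3, -⟩)
        · exact absurd h2 (not_lt.mpr h3.le)
        · exact h2.ne (congrArg e h3)
      rw [if_neg h3, if_pos (Or.inl h2), zero_sub, neg_neg]
    · have h3 : x.1 = y.1 := e.injective h2
      have h4 : ¬ (e x.1 < e y.1) := by rw [h2]; exact lt_irrefl _
      have h5 : ¬ (e y.1 < e x.1) := by rw [h2]; exact lt_irrefl _
      have h6 : x.2 - y.2 = -(y.2 - x.2) := (neg_sub _ _).symm
      rw [h6]
      generalize y.2 - x.2 = d
      by_cases hd : d = 0
      · subst hd
        have h7 : β x.1 y.1 0 = 0 := by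
          change cc hK (u x.1) (cj N g (0 : ZMod q).val (u y.1)) = 0
          rw [ZMod.val_zero, cj_zero, h3, cc_self]
        rw [h7, neg_zero]
        simp
      · have h7 : (-d).val = q - d.val := by
          rw [ZMod.neg_val, if_neg hd]
        have h8 : d.val < q := d.val_lt
        have h9 : d.val ≠ 0 := fun h => hd ((ZMod.val_eq_zero d).mp h)
        rw [h7]
        obtain ⟨j, hj⟩ := hq
        by_cases h10 : 2 * d.val < q
        · rw [if_pos (Or.inr ⟨h3, by omega, h10⟩), if_neg, sub_zero]
          rintro (h11 | ⟨-, -, h11⟩)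
          · exact h4 h11
          · omega
        · rw [if_neg, if_pos (Or.inr ⟨h3.symm, by omega, by omega⟩), zero_sub, neg_neg]
          rintro (h11 | ⟨-, -, h11⟩)
          · exact h5 h11
          · omega
    · have h3 : ¬ (e x.1 < e y.1 ∨ (y.1 = x.1 ∧ 0 < (x.2 - y.2).val ∧
          2 * (x.2 - y.2).val < q)) := by
        rintro (h3 | ⟨h3, -⟩)
        · exact absurd h2 (not_lt.mpr h3.le)
        · exact h2.ne (congrArg e h3)
      rw [if_neg h3, if_pos (Or.inl h2), sub_zero]
  have h1 : Kn fun w : List α => ((ann q w.reverse).map v).prod := by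
    refine cls2_kn (m := Nat.card N) (fun x => pow_card_eq_one') hK v
      (fun w : List α => ann q w.reverse)
      (fun x => (hn x.1 x.2).congr fun w => ct_ann q x.1 x.2 w.reverse)
      (fun x y => sab x.1 y.1 (y.2 - x.2)) hs ?_
    have h2 : Kn fun w : List α => ∑ a, ∑ b, ∑ d : ZMod q, PG q d a b w.reverse • sab a b d :=
      H559.kn_sum _ fun a _ => H559.kn_sum _ fun b _ => H559.kn_sum _ fun d _ =>
        kn_zsmul (hP d a b) _
    refine Eq.mp (congrArg Kn ?_) h2
    funext w
    exact (pg_ann q sab w.reverse).symm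
  have h2 : Kn fun w : List α => TS u hK q h w.reverse := by
    have h3 : ∀ a, KnZ fun w : List α => tn q a w.reverse := by
      intro a
      refine KnZ.div (c := q) hq.pos ?_
      refine ((KnZ.sum Finset.univ fun b _ => H487.pairH α b a).sub
        (KnZ.sum Finset.univ fun (r : ZMod q) _ => (hn a r).mul_left (r.val : ℤ))).congr
        fun w => ?_
      rw [tn_eq, List.reverse_reverse]
    refine Eq.mp (congrArg Kn ?_) (H559.kn_sum Finset.univ fun (a : α) _ =>
      kn_zsmul (h3 a) (cc hK h (u a)))
    funext w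
    exact (TS_eq u hK q h w.reverse).symm
  have h3 : Kn fun w : List α => ((w.length : ℕ) : ZMod (Nat.card G)) := by
    have h4 : KnZ fun w : List α => ∑ a, H559.C2.ct a w :=
      KnZ.sum Finset.univ fun a _ => H487.ct_known a
    have hlen : ∀ w : List α, ∑ b, H559.C2.ct b w = w.length := by
      intro w
      induction w with
      | nil => exact Finset.sum_eq_zero fun b _ => rfl
      | cons x w ih =>
        simp only [ct_cons, Finset.sum_add_distrib, ih, List.length_cons]
        rw [Finset.sum_ite_eq, if_pos (Finset.mem_univ _)]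
        push_cast
        ring
    refine Eq.mp (congrArg Kn ?_) (h4 (Nat.card G) Nat.card_pos)
    funext w
    beta_reduce
    rw [hlen, Int.cast_natCast]
  have h4 := (h1.pair (h2.pair h3)).comp fun t =>
    ((t.1 * vE t.2.1 : N) : G) * g ^ t.2.2.val
  refine Eq.mp (congrArg Kn ?_) h4
  funext w
  have h5 := prod_cos (N := N) (g := g) u w.reverse
  rw [List.reverse_reverse, PX_ann u hK hc h hh, List.length_reverse] at h5
  rw [h5, ZMod.val_natCast, pow_mod_natCard]

/-- **products of elements of one coset `N g` of a normal subgroup `N` of odd prime index, with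
commutators central in the group** -/
theorem coset_all {G : Type} [Group G] [Finite G] (N : Subgroup G) [N.Normal] {q : ℕ}
    (hq : q.Prime) (h2 : q ≠ 2) (g : G) (hg : g ^ q ∈ N)
    (hc : ∀ a b : N, ∀ c : G, c * ((a * b * a⁻¹ * b⁻¹ : N) : G) =
      ((a * b * a⁻¹ * b⁻¹ : N) : G) * c)
    {α : Type} [Finite α] (u : α → N) :
    Kn fun w : List α => (w.map fun x => ((u x : N) : G) * g).prod :=
  coset_known N (hq.odd_of_ne_two h2) g hg hc u (fun a r => nc_known hq.pos a r)
    fun e a b => pg hq e a b

end Vale.Agent.P329.H433
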