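import Vale.Agent.P329.H433.Cos

/-!
# P329 / one coset of a normal subgroup of odd prime index
-/

set_option linter.all false

namespace Vale.Agent.P329.H433

open Vale.Agent.P329

theorem hodd {α G : Type} [Finite α] [Group G] [Finite G] (N : Subgroup G) (q : ℕ) (g : G)
    (f : α → G) (hq : q.Prime) (h2 : q ≠ 2) (hN : N.Normal) (hi : N.index = q) (hg : g ∉ N)
    (hc : ∀ x ∈ N, ∀ y ∈ N, ∀ z : G, z * (x * y * x⁻¹ * y⁻¹) = x * y * x⁻¹ * y⁻¹ * z)
    (hf : ∀ x, g⁻¹ * f x ∈ N) : Kn fun w : List α => (w.map f).prod := by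
  have hu : ∀ x, f x * g⁻¹ ∈ N := by
    intro x
    have h1 := hN.conj_mem _ (hf x) g
    have h3 : g * (g⁻¹ * f x) * g⁻¹ = f x * g⁻¹ := by group
    rwa [h3] at h1
  have h1 := coset_all N hq h2 g (by rw [← hi]; exact Subgroup.pow_index_mem N g)
    (fun a b c => hc a a.2 b b.2 c) fun x => ⟨f x * g⁻¹, hu x⟩
  refine Eq.mp (congrArg Kn ?_) h1
  funext w
  congr 1
  refine List.map_congr_left fun x _ => ?_
  change f x * g⁻¹ * g = f x
  group

end Vale.Agent.P329.H433
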