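import Vale.Agent.P329.H433.BaerG
import Vale.Agent.P329.H487.C2H
import Vale.Agent.P329.H672.C2.P

/-!
# P329 / products in groups with central commutators from counts and pair counts
-/

set_option linter.all false

namespace Vale.Agent.P329.H433

open Vale.Agent.P329

section nf

variable {m : ℕ} {K : Type} [Group K] (hK : ∀ x y : K, x * y * x⁻¹ * y⁻¹ ∈ Em m K)

theorem cc_zpow (x y : K) (n : ℤ) : cc hK x (y ^ n) = n • cc hK x y := by
  let φ : K →* Multiplicative (Additive (Em m K)) :=
    { toFun := fun y => Multiplicative.ofAdd (cc hK x y)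
      map_one' := by rw [cc_one_right]; rfl
      map_mul' := fun a b => by rw [cc_mul_right]; rfl }
  have h := map_zpow φ y n
  exact Multiplicative.ofAdd.injective h

/-- ordered product of powers -/
def op : {k : ℕ} → (Fin k → K) → (Fin k → ℤ) → K
  | 0, _, _ => 1
  | _ + 1, v, n => v 0 ^ n 0 * op (fun i => v i.succ) (fun i => n i.succ)

theorem op_zero {k : ℕ} (v : Fin k → K) : op v (fun _ => 0) = 1 := by
  induction k with
  | zero => rfl
  | succ k ih => rw [op, ih, zpow_zero, one_mul]

theorem op_congr {k : ℕ} (v : Fin k → K) (n n' : Fin k → ℤ) (h : ∀ i, v i ^ n i = v i ^ n' i) :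
    op v n = op v n' := by
  induction k with
  | zero => rfl
  | succ k ih => rw [op, op, h 0, ih _ _ _ fun i => h i.succ]

theorem op_ins {k : ℕ} (v : Fin k → K) (n δ : Fin k → ℤ) (j : Fin k) (h1 : δ j = 1)
    (h0 : ∀ i, i ≠ j → δ i = 0) :
    v j * op v n = op v (fun i => δ i + n i) *
      vE (∑ y, if y < j then n y • cc hK (v j) (v y) else 0) := by
  induction k with
  | zero => exact j.elim0
  | succ k ih =>
    rw [op, op]
    refine Fin.cases ?_ ?_ j (motive := fun j => δ j = 1 → (∀ i, i ≠ j → δ i = 0) →
      v j * (v 0 ^ n 0 * op (fun i => v i.succ) fun i => n i.succ) =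
      v 0 ^ (δ 0 + n 0) * op (fun i => v i.succ) (fun i => δ i.succ + n i.succ) *
      vE (∑ y, if y < j then n y • cc hK (v j) (v y) else 0)) h1 h0
    · intro h1 h0
      have e1 : (∑ y : Fin (k + 1), if y < 0 then n y • cc hK (v 0) (v y) else 0) = 0 :=
        Finset.sum_eq_zero fun y _ => if_neg (Fin.not_lt_zero y)
      have e2 : (fun i : Fin k => δ i.succ + n i.succ) = fun i => n i.succ := by
        funext i
        rw [h0 _ (Fin.succ_ne_zero i), zero_add]
      rw [e1, vE_zero, mul_one, e2, h1, zpow_add, zpow_one, mul_assoc]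
    · intro i h1 h0
      have e1 := ih (fun i => v i.succ) (fun i => n i.succ) (fun i => δ i.succ) i h1
        fun i' hi => h0 _ fun h => hi (Fin.succ_injective _ h)
      have e2 : δ 0 = 0 := h0 0 (Fin.succ_ne_zero i).symm
      rw [e2, zero_add, Fin.sum_univ_succ, if_pos (Fin.succ_pos i), vE_add, ← cc_zpow]
      have e3 : (∑ y : Fin k, if y.succ < i.succ then n y.succ • cc hK (v i.succ) (v y.succ)
          else 0) = ∑ y : Fin k, if y < i then n y.succ • cc hK (v i.succ) (v y.succ) else 0 :=
        Finset.sum_congr rfl fun y _ => by simp only [Fin.succ_lt_succ_iff]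
      rw [e3]
      have e4 := comm_eq hK (v i.succ) (v 0 ^ n 0)
      calc v i.succ * (v 0 ^ n 0 * op (fun i => v i.succ) fun i => n i.succ)
          = (v i.succ * v 0 ^ n 0) * op (fun i => v i.succ) fun i => n i.succ := by
            rw [mul_assoc]
        _ = vE (cc hK (v i.succ) (v 0 ^ n 0)) * (v 0 ^ n 0 *
            (v i.succ * op (fun i => v i.succ) fun i => n i.succ)) := by
            rw [e4]; simp only [mul_assoc]
        _ = _ := by
            rw [e1, ← vE_cen]
            simp only [mul_assoc]
            rw [← vE_cen]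

variable {J : Type} {k : ℕ}

theorem ct_cons (x j : J) (L : List J) [Decidable (j = x)] :
    H559.C2.ct x (j :: L) = (if j = x then 1 else 0) + H559.C2.ct x L := by
  rw [H559.C2.ct]
  congr

/-- **normal form of a product in a group with central commutators** -/
theorem nf_prod [Fintype J] (e : J ≃ Fin k) (v : J → K) (L : List J) :
    (L.map v).prod = op (fun i => v (e.symm i)) (fun i => H559.C2.ct (e.symm i) L) *
      vE (∑ x, ∑ y, H559.C2.pc x y L • if e y < e x then cc hK (v x) (v y) else 0) := by
  classical
  induction L with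
  | nil =>
    have e1 : (fun i : Fin k => H559.C2.ct (e.symm i) []) = fun _ => 0 := rfl
    have e2 : (∑ x : J, ∑ y : J, H559.C2.pc x y [] • if e y < e x then cc hK (v x) (v y) else 0)
        = 0 := Finset.sum_eq_zero fun x _ => Finset.sum_eq_zero fun y _ => by
      rw [H559.C2.pc, H559.C2.pcA, zero_smul]
    rw [e1, e2, op_zero, vE_zero, mul_one]
    rfl
  | cons j L ih =>
    rw [List.map_cons, List.prod_cons, ih]
    have e1 := op_ins hK (fun i => v (e.symm i)) (fun i => H559.C2.ct (e.symm i) L)
      (fun i => if j = e.symm i then 1 else 0) (e j) (if_pos (e.symm_apply_apply j).symm)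
      fun i hi => if_neg fun h => hi (by rw [h, e.apply_symm_apply])
    rw [e.symm_apply_apply] at e1
    have e2 : (fun i : Fin k => (if j = e.symm i then (1 : ℤ) else 0) +
        H559.C2.ct (e.symm i) L) = fun i => H559.C2.ct (e.symm i) (j :: L) := by
      funext i
      rw [ct_cons]
    have e3 : (∑ y : Fin k, if y < e j then H559.C2.ct (e.symm y) L •
        cc hK (v j) (v (e.symm y)) else 0) =
        ∑ y : J, H559.C2.ct y L • if e y < e j then cc hK (v j) (v y) else 0 := by
      rw [← e.sum_comp]
      refine Finset.sum_congr rfl fun y _ => ?_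
      rw [e.symm_apply_apply]
      split
      · rfl
      · rw [smul_zero]
    have e4 : (∑ x : J, ∑ y : J, H559.C2.pc x y (j :: L) •
        if e y < e x then cc hK (v x) (v y) else 0) =
        (∑ x : J, ∑ y : J, H559.C2.pc x y L • if e y < e x then cc hK (v x) (v y) else 0) +
        ∑ y : J, H559.C2.ct y L • if e y < e j then cc hK (v j) (v y) else 0 := by
      have e5 : (∑ y : J, H559.C2.ct y L • if e y < e j then cc hK (v j) (v y) else 0) =
          ∑ x : J, ∑ y : J, ((if j = x then (1 : ℤ) else 0) * H559.C2.ct y L) •
            if e y < e x then cc hK (v x) (v y) else 0 := by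
        symm
        rw [Finset.sum_eq_single j]
        · simp only [if_true, one_mul]
        · intro x _ hx
          refine Finset.sum_eq_zero fun y _ => ?_
          rw [if_neg fun h => hx h.symm, zero_mul, zero_smul]
        · intro h; exact absurd (Finset.mem_univ _) h
      rw [e5, ← Finset.sum_add_distrib]
      refine Finset.sum_congr rfl fun x _ => ?_
      rw [← Finset.sum_add_distrib]
      refine Finset.sum_congr rfl fun y _ => ?_
      rw [← add_smul, H672.C2.pc_cons]
    rw [e4, vE_add, ← e2, ← e3, ← mul_assoc, e1]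
    simp only [mul_assoc]
    congr 1
    rw [vE_cen]

end nf

section known

variable {m : ℕ} [NeZero m] {K : Type} [Group K] [Finite K]

theorem kn_zsmul {α : Type} {z : List α → ℤ} (hz : KnZ z) (d : Additive (Em m K)) :
    Kn fun w => z w • d := by
  have h1 := (hz m (Nat.pos_of_ne_zero (NeZero.ne m))).comp fun t : ZMod m => t • d
  refine Eq.mp (congrArg Kn ?_) h1
  funext w
  exact Int.cast_smul_eq_zsmul (ZMod m) (z w) d

theorem pc_add {J : Type} {x y : J} (hxy : x ≠ y) (L : List J) :
    H559.C2.pc x y L + H559.C2.pc y x L = H559.C2.ct x L * H559.C2.ct y L := by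
  classical
  induction L with
  | nil => rfl
  | cons j L ih =>
    rw [H672.C2.pc_cons, H672.C2.pc_cons, ct_cons, ct_cons]
    by_cases h : j = x
    · have h' : j ≠ y := fun h2 => hxy (h.symm.trans h2)
      simp only [if_pos h, if_neg h']
      linear_combination ih
    · by_cases h' : j = y
      · simp only [if_neg h, if_pos h']
        linear_combination ih
      · simp only [if_neg h, if_neg h']
        linear_combination ih

/-- **products in finite groups with central commutators are known** if the counts are, and one
suitable combination of the pair counts -/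
theorem cls2_kn (hexp : ∀ x : K, x ^ m = 1) (hK : ∀ x y : K, x * y * x⁻¹ * y⁻¹ ∈ Em m K)
    {J : Type} [Fintype J] (v : J → K) {α : Type} (L : List α → List J)
    (hct : ∀ x, KnZ fun w => H559.C2.ct x (L w)) (s : J → J → Additive (Em m K))
    (hs : ∀ x y, s x y - s y x = cc hK (v x) (v y))
    (hS : Kn fun w => ∑ x, ∑ y, H559.C2.pc x y (L w) • s x y) :
    Kn fun w => ((L w).map v).prod := by
  classical
  have hm : 0 < m := Nat.pos_of_ne_zero (NeZero.ne m)
  obtain ⟨k, ⟨e⟩⟩ : ∃ k, Nonempty (J ≃ Fin k) := ⟨_, ⟨Fintype.equivFin J⟩⟩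
  -- the ordered product
  have h1 : Kn fun w => op (fun i => v (e.symm i)) fun i => H559.C2.ct (e.symm i) (L w) := by
    have h2 := (Kn.pi fun i : Fin k => hct (e.symm i) m hm).comp fun t : Fin k → ZMod m =>
      op (fun i => v (e.symm i)) fun i => ((t i).val : ℤ)
    refine Eq.mp (congrArg Kn ?_) h2
    funext w
    refine op_congr _ _ _ fun i => ?_
    rw [ZMod.val_intCast]
    conv_rhs => rw [← Int.emod_add_mul_ediv (H559.C2.ct (e.symm i) (L w)) m]
    rw [zpow_add, zpow_mul, zpow_natCast, hexp, one_zpow, mul_one]
  -- the difference of the two bilinear weights is symmetric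
  let S : J → J → Additive (Em m K) := fun x y => if e y < e x then cc hK (v x) (v y) else 0
  have hSS : ∀ x y, S x y - S y x = cc hK (v x) (v y) := by
    intro x y
    change (if _ then _ else _) - (if _ then _ else _) = _
    rcases lt_trichotomy (e x) (e y) with h | h | h
    · rw [if_neg (not_lt.mpr h.le), if_pos h, zero_sub, cc_swap hK (v x) (v y), neg_neg]
    · have h' := e.injective h
      subst h'
      rw [if_neg (lt_irrefl _), sub_zero, cc_self]
    · rw [if_pos h, if_neg (not_lt.mpr h.le), sub_zero]
  let D : J → J → Additive (Em m K) := fun x y => S x y - s x y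
  have hD : ∀ x y, D x y = D y x := by
    intro x y
    have h2 := hSS x y
    have h3 := hs x y
    change S x y - s x y = S y x - s y x
    rw [sub_eq_sub_iff_sub_eq_sub, h2, h3]
  have h2 : ∀ w, ∑ x, ∑ y, H559.C2.pc x y (L w) • S x y =
      (∑ x, ∑ y, H559.C2.pc x y (L w) • s x y) +
      ((∑ x, ∑ y, if e y < e x then (H559.C2.ct x (L w) * H559.C2.ct y (L w)) • D x y else 0) +
        ∑ x, H559.C2.pc x x (L w) • D x x) := by
    intro w
    have h3 : ∀ x y, H559.C2.pc x y (L w) • S x y =
        H559.C2.pc x y (L w) • s x y + H559.C2.pc x y (L w) • D x y := by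
      intro x y
      rw [← smul_add]
      congr 1
      change S x y = s x y + (S x y - s x y)
      abel
    simp only [h3, Finset.sum_add_distrib]
    congr 1
    -- split by the order
    have h4 : ∀ x y, H559.C2.pc x y (L w) • D x y =
        (if e y < e x then H559.C2.pc x y (L w) • D x y else 0) +
        (if e x < e y then H559.C2.pc x y (L w) • D x y else 0) +
        (if x = y then H559.C2.pc x x (L w) • D x x else 0) := by
      intro x y
      rcases lt_trichotomy (e x) (e y) with h | h | h
      · rw [if_neg (not_lt.mpr h.le), if_pos h, if_neg (fun h' => h.ne (congrArg e h')), zero_add,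
          add_zero]
      · have h' := e.injective h
        subst h'
        rw [if_neg (lt_irrefl _), if_pos rfl, add_zero, zero_add]
      · rw [if_pos h, if_neg (not_lt.mpr h.le), if_neg (fun h' => h.ne' (congrArg e h')), add_zero,
          add_zero]
    have h5 : (∑ x, ∑ y, if e x < e y then H559.C2.pc x y (L w) • D x y else 0) =
        ∑ x, ∑ y, if e y < e x then H559.C2.pc y x (L w) • D x y else 0 := by
      rw [Finset.sum_comm]
      refine Finset.sum_congr rfl fun x _ => Finset.sum_congr rfl fun y _ => ?_
      rw [hD y x]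
    have h6 : (∑ x, ∑ y, H559.C2.pc x y (L w) • D x y) =
        (∑ x, ∑ y, if e y < e x then H559.C2.pc x y (L w) • D x y else 0) +
        (∑ x, ∑ y, if e x < e y then H559.C2.pc x y (L w) • D x y else 0) +
        ∑ x, ∑ y, if x = y then H559.C2.pc x x (L w) • D x x else 0 := by
      simp only [← Finset.sum_add_distrib]
      exact Finset.sum_congr rfl fun x _ => Finset.sum_congr rfl fun y _ => h4 x y
    rw [h6, h5]
    congr 1
    · rw [← Finset.sum_add_distrib]
      refine Finset.sum_congr rfl fun x _ => ?_
      rw [← Finset.sum_add_distrib]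
      refine Finset.sum_congr rfl fun y _ => ?_
      by_cases h : e y < e x
      · rw [if_pos h, if_pos h, if_pos h, ← add_smul, pc_add fun h' => h.ne (congrArg e h'.symm)]
      · rw [if_neg h, if_neg h, if_neg h, add_zero]
    · refine Finset.sum_congr rfl fun x _ => ?_
      rw [Finset.sum_ite_eq, if_pos (Finset.mem_univ _)]
  have h3 : Kn fun w => ∑ x, ∑ y,
      if e y < e x then (H559.C2.ct x (L w) * H559.C2.ct y (L w)) • D x y else 0 := by
    refine H559.kn_sum Finset.univ fun x _ => H559.kn_sum Finset.univ fun y _ => ?_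
    by_cases h : e y < e x
    · simp only [if_pos h]
      exact kn_zsmul ((hct x).mul (hct y)) _
    · simp only [if_neg h]
      exact Kn.const 0
  have h4 : Kn fun w => ∑ x, H559.C2.pc x x (L w) • D x x := by
    refine H559.kn_sum Finset.univ fun x _ => kn_zsmul ?_ _
    refine KnZ.div (c := 2) two_pos ?_
    exact (((hct x).mul (hct x)).sub (hct x)).congr fun w => by
      rw [Nat.cast_ofNat]
      exact H487.two_pc x (L w)
  have h5 := (h1.pair (hS.pair (h3.pair h4))).comp fun t =>
    t.1 * vE (t.2.1 + (t.2.2.1 + t.2.2.2))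
  refine Eq.mp (congrArg Kn ?_) h5
  funext w
  rw [nf_prod hK e v (L w)]
  exact congrArg (fun z => op (fun i => v (e.symm i)) (fun i => H559.C2.ct (e.symm i) (L w)) *
    vE z) (h2 w).symm

end known

end Vale.Agent.P329.H433
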